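import Vale.Agent.P141.H470.KillN
import Vale.Agent.P141.H652.PlaneR

/-!
# P141, line (A), near term: the kills of a scale above the middle scale

Two families agree off the squares `Q` of scale `t`.  They are compared at the middle scale `k ≤ t`
(`k + r = t`) and at the outer scales `a ≥ t`.  The charge is the cap of the partner times the mass
of the rows of the affected squares; the cap at middle scale `k` is `2 ^ r` times the cap of the
squares of scale `t`.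
-/

namespace Vale.Agent.P141.H275

open Finset Matrix Vale.Agent.P141.PL Vale.Agent.P141.H103
open Vale.Agent.P075 (Ix val)
open Vale.Agent.P141.H736 (arQ)
open Vale.Agent.P141.H470
open Vale.Agent.P141.H652 (MR)

noncomputable section

open scoped Classical

variable {κ κ' : Type*} [Fintype κ] [Fintype κ']

/-- mass of the rows of the affected squares of scale `t` over the middle cell `m` of scale `k` -/
def km (t r a k : ℕ) (Q : ℤ → ℤ → Prop) (b : ℤ → ℤ → κ → ℝ) (n m : ℤ) : ℝ :=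
  ∑ x ∈ iv a n, if Q (ix t x) (ix r m) then ∑ y ∈ iv k m, ∑ i, b x y i ^ 2 else 0

/-- mass of the rows of all affected squares of scale `t` -/
def kM (N : ℕ) (R S : ℤ) (t : ℕ) (Q : ℤ → ℤ → Prop) (b : ℤ → ℤ → κ → ℝ) : ℝ :=
  ∑ M ∈ iv (N - t) S, ∑ x ∈ iv N R, if Q (ix t x) M then ∑ y ∈ iv t M, ∑ i, b x y i ^ 2 else 0

theorem ms_nonneg (s : Finset ℤ) (b : ℤ → ℤ → κ → ℝ) (x : ℤ) : 0 ≤ ∑ y ∈ s, ∑ i, b x y i ^ 2 :=
  sum_nonneg fun _ _ => sum_nonneg fun _ _ => sq_nonneg _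

theorem km_nonneg (t r a k : ℕ) (Q : ℤ → ℤ → Prop) (b : ℤ → ℤ → κ → ℝ) (n m : ℤ) :
    0 ≤ km t r a k Q b n m := sum_nonneg fun x _ => by
  split_ifs
  · exact ms_nonneg _ b x
  · exact le_rfl

theorem kM_nonneg (N : ℕ) (R S : ℤ) (t : ℕ) (Q : ℤ → ℤ → Prop) (b : ℤ → ℤ → κ → ℝ) :
    0 ≤ kM N R S t Q b := sum_nonneg fun _ _ => sum_nonneg fun x _ => by
  split_ifs
  · exact ms_nonneg _ b x
  · exact le_rfl

variable {N t r k : ℕ} {R S T : ℤ} {Q Q' : ℤ → ℤ → Prop}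

/-- the sum of the row masses over the rectangles -/
theorem sum_km (hk : k + r = t) (ht : t ≤ N) {a : ℕ} (ha : a ≤ N) (b : ℤ → ℤ → κ → ℝ) :
    ∑ m ∈ iv (N - k) S, ∑ n ∈ iv (N - a) R, km t r a k Q b n m = kM N R S t Q b := by
  subst hk
  have e1 : ∀ m, ∑ n ∈ iv (N - a) R, km (k + r) r a k Q b n m =
      ∑ x ∈ iv N R, if Q (ix (k + r) x) (ix r m) then ∑ y ∈ iv k m, ∑ i, b x y i ^ 2 else 0 :=
    fun m => H804.iv_sum ha R fun x =>
      if Q (ix (k + r) x) (ix r m) then ∑ y ∈ iv k m, ∑ i, b x y i ^ 2 else 0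
  rw [sum_congr rfl fun m _ => e1 m]
  have h2 := H804.iv_sum (N := N - k) (k := r) (by omega) S fun m => ∑ x ∈ iv N R,
    if Q (ix (k + r) x) (ix r m) then ∑ y ∈ iv k m, ∑ i, b x y i ^ 2 else 0
  rw [← h2, show N - k - r = N - (k + r) by omega]
  unfold kM
  refine sum_congr rfl fun M _ => ?_
  rw [sum_comm]
  refine sum_congr rfl fun x _ => ?_
  have e3 : ∀ m ∈ iv r M, (if Q (ix (k + r) x) (ix r m) then ∑ y ∈ iv k m, ∑ i, b x y i ^ 2
      else 0) = if Q (ix (k + r) x) M then ∑ y ∈ iv k m, ∑ i, b x y i ^ 2 else 0 := by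
    intro m hm
    rw [mem_iv.1 hm]
  rw [sum_congr rfl e3]
  split_ifs
  · rw [sum_cut k r M]
  · exact sum_const_zero

/-- the affected mass by the area -/
theorem kM_le {e : ℝ} {b : ℤ → ℤ → κ → ℝ} (ht : t ≤ N)
    (hb : ∀ x ∈ iv N R, ∀ M ∈ iv (N - t) S, Q (ix t x) M →
      ∑ y ∈ iv t M, ∑ i, b x y i ^ 2 ≤ e * 2 ^ t) : kM N R S t Q b ≤ e * arQ N R S t Q := by
  unfold kM arQ
  have e4 : (4 : ℝ) ^ t = 2 ^ t * 2 ^ t := by rw [← mul_pow]; norm_num
  rw [mul_sum, mul_sum]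
  refine sum_le_sum fun M hM => ?_
  have h1 : ∑ x ∈ iv N R, (if Q (ix t x) M then ∑ y ∈ iv t M, ∑ i, b x y i ^ 2 else 0) ≤
      ∑ x ∈ iv N R, (if Q (ix t x) M then e * 2 ^ t else 0) := by
    refine sum_le_sum fun x hx => ?_
    split_ifs with hq
    · exact hb x hx M hM hq
    · exact le_rfl
  refine h1.trans (le_of_eq ?_)
  have h2 := H804.iv_sum ht R fun x => if Q (ix t x) M then e * 2 ^ t else (0 : ℝ)
  rw [← h2, e4, mul_sum, mul_sum]
  refine sum_congr rfl fun n _ => ?_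
  have h3 : ∀ x ∈ iv t n, (if Q (ix t x) M then e * 2 ^ t else (0 : ℝ)) =
      if Q n M then e * 2 ^ t else 0 := by
    intro x hx
    rw [mem_iv.1 hx]
  rw [sum_congr rfl h3, sum_const, card_iv, nsmul_eq_mul]
  split_ifs
  · push_cast
    ring
  · ring

/-! ### one node -/

/-- the form of the rows sees the middle cell only -/
theorem Qf_congr {a l : ℕ} {c : ℤ → ℤ → κ → ℝ} {n m : ℤ} {f f' : ℤ → ℝ}
    (h : ∀ y ∈ iv l m, f y = f' y) : Qf a l c n m f = Qf a l c n m f' := by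
  unfold Qf
  refine sum_congr rfl fun x _ => sum_congr rfl fun i _ => ?_
  congr 1
  exact sum_congr rfl fun y hy => by rw [h y hy]

/-- **One side of a node.** -/
theorem side_cut [DecidableEq κ] [DecidableEq κ'] {C : ℝ} {a a' : ℕ} {b b' : ℤ → ℤ → κ → ℝ}
    {c : ℤ → ℤ → κ' → ℝ} {n n' m : ℤ} (hk : k + r = t) (ht : t ≤ N) (ha : a ≤ N)
    (hA : AgrQ N R S t Q b' b) (hn : n ∈ iv (N - a) R) (hm : m ∈ iv (N - k) S)
    (hC : Cp C a' k c n' m) :
    (QW a k b' (fun _ => 1) n m * QW a' k c (fun _ => 1) n' m).trace ≤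
      (QW a k b (fun _ => 1) n m * QW a' k c (fun _ => 1) n' m).trace +
        C * (((2 : ℝ) ^ a * 2 ^ k)⁻¹ * km t r a k Q b' n m) := by
  subst hk
  rw [tr_un, tr_un]
  have hx : ∀ x ∈ iv a n, x ∈ iv N R := by
    intro x hx
    rw [mem_iv] at hn hx ⊢
    rw [← hn, ← hx, ix_ix]
    congr 1
    omega
  have hm2 : ix r m ∈ iv (N - (k + r)) S := by
    rw [mem_iv] at hm ⊢
    rw [← hm, ix_ix]
    congr 1
    omega
  have h1 : ∑ x ∈ iv a n, ∑ i, Qf a' k c n' m (fun y => b' x y i) ≤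
      ∑ x ∈ iv a n, ∑ i, Qf a' k c n' m (fun y => b x y i) +
        C * 2 ^ a' * 2 ^ k * km (k + r) r a k Q b' n m := by
    unfold km
    rw [mul_sum, ← sum_add_distrib]
    refine sum_le_sum fun x hx' => ?_
    split_ifs with hq
    · have h2 : ∑ i, Qf a' k c n' m (fun y => b' x y i) ≤
          C * 2 ^ a' * 2 ^ k * ∑ y ∈ iv k m, ∑ i, b' x y i ^ 2 := by
        rw [sum_comm (s := iv k m), mul_sum]
        exact sum_le_sum fun i _ => hC fun y => b' x y i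
      have h3 : 0 ≤ ∑ i, Qf a' k c n' m (fun y => b x y i) :=
        sum_nonneg fun i _ => Qf_nonneg ..
      linarith
    · have hnx : ix (k + r) x ∈ iv (N - (k + r)) R := by
        have h4 := hx x hx'
        rw [mem_iv] at h4 ⊢
        rw [ix_ix, ← h4]
        congr 1
        omega
      have h5 : ∀ y ∈ iv k m, b' x y = b x y := by
        intro y hy
        refine hA _ hnx _ hm2 hq x (mem_iv.2 rfl) y ?_
        rw [mem_iv] at hy ⊢
        rw [← hy, ix_ix]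
      rw [mul_zero, add_zero]
      refine le_of_eq (sum_congr rfl fun i _ => Qf_congr fun y hy => ?_)
      rw [h5 y hy]
  have h2 : (0 : ℝ) ≤ ((2 : ℝ) ^ a * 2 ^ a')⁻¹ * ((2 : ℝ) ^ k)⁻¹ ^ 2 := by positivity
  have h3 := mul_le_mul_of_nonneg_left h1 h2
  rw [mul_add, mul_assoc, mul_assoc] at h3
  refine h3.trans (le_of_eq ?_)
  congr 1
  have e1 : (2 : ℝ) ^ a ≠ 0 := by positivity
  have e2 : (2 : ℝ) ^ a' ≠ 0 := by positivity
  have e3 : (2 : ℝ) ^ k ≠ 0 := by positivity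
  field_simp

/-- **One node.** -/
theorem node_cut [DecidableEq κ] [DecidableEq κ'] {C C' : ℝ} {a a' : ℕ} {b b' : ℤ → ℤ → κ → ℝ}
    {c c' : ℤ → ℤ → κ' → ℝ} {n n' m : ℤ} (hk : k + r = t) (ht : t ≤ N) (ha : a ≤ N) (ha' : a' ≤ N)
    (hA : AgrQ N R S t Q b' b) (hA' : AgrQ N T S t Q' c' c) (hn : n ∈ iv (N - a) R)
    (hn' : n' ∈ iv (N - a') T) (hm : m ∈ iv (N - k) S)
    (hC : Cp C a k b n m) (hC' : Cp C' a' k c' n' m) :
    (QW a k b' (fun _ => 1) n m * QW a' k c' (fun _ => 1) n' m).trace ≤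
      (QW a k b (fun _ => 1) n m * QW a' k c (fun _ => 1) n' m).trace +
        (C' * (((2 : ℝ) ^ a * 2 ^ k)⁻¹ * km t r a k Q b' n m) +
          C * (((2 : ℝ) ^ a' * 2 ^ k)⁻¹ * km t r a' k Q' c' n' m)) := by
  have h1 := side_cut hk ht ha hA hn hm hC'
  have h2 := side_cut hk ht ha' hA' hn' hm hC
  have c1 := trace_mul_comm (QW a k b (fun _ => 1) n m) (QW a' k c' (fun _ => 1) n' m)
  have c2 := trace_mul_comm (QW a k b (fun _ => 1) n m) (QW a' k c (fun _ => 1) n' m)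
  linarith

/-! ### all nodes -/

/-- **Change of the own energy**, middle scale `k`, kill scale `k + r`, any outer scale. -/
theorem EW_cut [DecidableEq κ] {C C' : ℝ} {a : ℕ} {b b' : ℤ → ℤ → κ → ℝ} (hk : k + r = t)
    (ht : t ≤ N) (ha : a ≤ N) (hA : AgrQ N R S t Q b' b)
    (hC : ∀ n ∈ iv (N - a) R, ∀ m ∈ iv (N - k) S, Cp C a k b n m)
    (hC' : ∀ n ∈ iv (N - a) R, ∀ m ∈ iv (N - k) S, Cp C' a k b' n m) :
    EW N R S k (QK b' (fun _ _ _ => 1) k) a ≤ EW N R S k (QK b (fun _ _ _ => 1) k) a +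
      (C' + C) * kM N R S t Q b' := by
  unfold EW
  simp only [QK_one]
  have h1 : ∑ m ∈ iv (N - k) S, ∑ n ∈ iv (N - a) R,
      (QW a k b' (fun _ => 1) n m * QW a k b' (fun _ => 1) n m).trace ≤
      ∑ m ∈ iv (N - k) S, ∑ n ∈ iv (N - a) R,
        (QW a k b (fun _ => 1) n m * QW a k b (fun _ => 1) n m).trace +
      (C' + C) * (((2 : ℝ) ^ a * 2 ^ k)⁻¹ *
        ∑ m ∈ iv (N - k) S, ∑ n ∈ iv (N - a) R, km t r a k Q b' n m) := by
    rw [mul_sum, mul_sum, ← sum_add_distrib]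
    refine sum_le_sum fun m hm => ?_
    rw [mul_sum, mul_sum, ← sum_add_distrib]
    refine sum_le_sum fun n hn => ?_
    have := node_cut hk ht ha ha hA hA hn hn hm (hC n hn m hm) (hC' n hn m hm)
    linarith
  rw [sum_km hk ht ha b'] at h1
  refine (mul_le_mul_of_nonneg_left h1 (by positivity)).trans (le_of_eq ?_)
  rw [mul_add]
  congr 1
  have e1 : (2 : ℝ) ^ a ≠ 0 := by positivity
  have e3 : (2 : ℝ) ^ k ≠ 0 := by positivity
  field_simp

/-- **Change of the plane functional**, middle scale `k`, outer scale and kill scale `k + r`. -/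
theorem MR_cut [DecidableEq κ] [DecidableEq κ'] {C C' : ℝ} {b b' : ℤ → ℤ → κ → ℝ}
    {c c' : ℤ → ℤ → κ' → ℝ} (hC0 : 0 ≤ C) (hC0' : 0 ≤ C') (ht : k + r ≤ N) (d : ℤ)
    (hA : AgrQ N R S (k + r) Q b' b) (hA' : AgrQ N T S (k + r) Q' c' c)
    (hC : ∀ n ∈ iv (N - (k + r)) R, ∀ m ∈ iv (N - k) S, Cp C (k + r) k b n m)
    (hC' : ∀ n ∈ iv (N - (k + r)) T, ∀ m ∈ iv (N - k) S, Cp C' (k + r) k c' n m) :
    MR N R S T k r d (QK b' (fun _ _ _ => 1) k (k + r)) (QK c' (fun _ _ _ => 1) k (k + r)) ≤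
      MR N R S T k r d (QK b (fun _ _ _ => 1) k (k + r)) (QK c (fun _ _ _ => 1) k (k + r)) +
      (C' * kM N R S (k + r) Q b' + C * kM N T S (k + r) Q' c') := by
  unfold MR
  simp only [QK_one]
  set w : ℝ := ((2 : ℝ) ^ (k + r) * 2 ^ k)⁻¹ with hw
  have hw0 : 0 ≤ w := by positivity
  set X : ℤ → ℤ → ℝ := fun n m => km (k + r) r (k + r) k Q b' n m with hX
  set X' : ℤ → ℤ → ℝ := fun n m => km (k + r) r (k + r) k Q' c' n m with hX'
  have X0 : ∀ n m, 0 ≤ X n m := fun n m => km_nonneg ..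
  have X0' : ∀ n m, 0 ≤ X' n m := fun n m => km_nonneg ..
  have h1 : ∑ m ∈ iv (N - k) S, ∑ n ∈ iv (N - (k + r)) R,
      (if d - m / 2 ^ r - n ∈ iv (N - (k + r)) T then (QW (k + r) k b' (fun _ => 1) n m *
        QW (k + r) k c' (fun _ => 1) (d - m / 2 ^ r - n) m).trace else 0) ≤
      ∑ m ∈ iv (N - k) S, ∑ n ∈ iv (N - (k + r)) R,
        (if d - m / 2 ^ r - n ∈ iv (N - (k + r)) T then (QW (k + r) k b (fun _ => 1) n m *
          QW (k + r) k c (fun _ => 1) (d - m / 2 ^ r - n) m).trace else 0) +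
      (C' * w * ∑ m ∈ iv (N - k) S, ∑ n ∈ iv (N - (k + r)) R, X n m +
        C * w * ∑ m ∈ iv (N - k) S, ∑ n ∈ iv (N - (k + r)) T, X' n m) := by
    rw [mul_sum, mul_sum, ← sum_add_distrib, ← sum_add_distrib]
    refine sum_le_sum fun m hm => ?_
    have key := H588.sum_refl_le (N - (k + r)) R T (d - m / 2 ^ r) (fun n => X' n m)
      fun n => X0' n m
    have key2 := mul_le_mul_of_nonneg_left key (show 0 ≤ C * w by positivity)
    have h2 : ∑ n ∈ iv (N - (k + r)) R,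
        (if d - m / 2 ^ r - n ∈ iv (N - (k + r)) T then (QW (k + r) k b' (fun _ => 1) n m *
          QW (k + r) k c' (fun _ => 1) (d - m / 2 ^ r - n) m).trace else 0) ≤
        ∑ n ∈ iv (N - (k + r)) R,
          (if d - m / 2 ^ r - n ∈ iv (N - (k + r)) T then (QW (k + r) k b (fun _ => 1) n m *
            QW (k + r) k c (fun _ => 1) (d - m / 2 ^ r - n) m).trace else 0) +
        (C' * w * ∑ n ∈ iv (N - (k + r)) R, X n m +
          C * w * ∑ n ∈ iv (N - (k + r)) R,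
            (if d - m / 2 ^ r - n ∈ iv (N - (k + r)) T then X' (d - m / 2 ^ r - n) m else 0)) := by
      rw [mul_sum, mul_sum, ← sum_add_distrib, ← sum_add_distrib]
      refine sum_le_sum fun n hn => ?_
      by_cases hT : d - m / 2 ^ r - n ∈ iv (N - (k + r)) T
      · rw [if_pos hT, if_pos hT, if_pos hT]
        have h3 := node_cut rfl ht ht ht hA hA' hn hT hm (hC n hn m hm) (hC' _ hT m hm)
        refine h3.trans (le_of_eq ?_)
        simp only [hX, hX', hw]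
        ring
      · rw [if_neg hT, if_neg hT, if_neg hT, mul_zero, add_zero, zero_add]
        exact mul_nonneg (by positivity) (X0 n m)
    linarith
  have s1 := sum_km (k := k) (r := r) (R := R) (S := S) (Q := Q) rfl ht ht b'
  have s2 := sum_km (k := k) (r := r) (R := T) (S := S) (Q := Q') rfl ht ht c'
  rw [s1, s2] at h1
  refine (mul_le_mul_of_nonneg_left h1 (by positivity)).trans (le_of_eq ?_)
  rw [mul_add]
  congr 1
  rw [hw]
  have e1 : (2 : ℝ) ^ (k + r) ≠ 0 := by positivity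
  have e3 : (2 : ℝ) ^ k ≠ 0 := by positivity
  field_simp

/-! ### caps -/

/-- the cap of a smaller middle cell -/
theorem Cp_cut {C : ℝ} {a l : ℕ} {c : ℤ → ℤ → κ → ℝ} {n M m : ℤ} (hk : k + r = l)
    (hm : ix r m = M) (h : Cp C a l c n M) : Cp (2 ^ r * C) a k c n m := by
  subst hk
  intro f
  have hsub : iv k m ⊆ iv (k + r) M := by
    intro y hy
    rw [mem_iv] at hy ⊢
    rw [← hm, ← hy, ix_ix]
  have h1 := h fun y => if y ∈ iv k m then f y else 0
  have e1 : Qf a (k + r) c n M (fun y => if y ∈ iv k m then f y else 0) = Qf a k c n m f := by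
    unfold Qf
    refine sum_congr rfl fun x _ => sum_congr rfl fun i _ => ?_
    congr 1
    rw [← sum_subset hsub (fun y _ hy => by beta_reduce; rw [if_neg hy, zero_mul])]
    exact sum_congr rfl fun y hy => by beta_reduce; rw [if_pos hy]
  have e2 : ∑ y ∈ iv (k + r) M, (if y ∈ iv k m then f y else 0) ^ 2 = ∑ y ∈ iv k m, f y ^ 2 := by
    rw [← sum_subset hsub (fun y _ hy => by rw [if_neg hy]; norm_num)]
    exact sum_congr rfl fun y hy => by rw [if_pos hy]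
  rw [e1, e2] at h1
  refine h1.trans (le_of_eq ?_)
  rw [pow_add]
  ring

/-- the cap of a smaller outer cell -/
theorem Cp_half {C : ℝ} {a l : ℕ} {c : ℤ → ℤ → κ → ℝ} {n m : ℤ}
    (h : Cp C (a + 1) l c (ix 1 n) m) : Cp (2 * C) a l c n m := by
  intro f
  have hsub : iv a n ⊆ iv (a + 1) (ix 1 n) := by
    intro y hy
    rw [mem_iv] at hy ⊢
    rw [← hy, ix_ix]
  have h1 : Qf a l c n m f ≤ Qf (a + 1) l c (ix 1 n) m f :=
    sum_le_sum_of_subset_of_nonneg hsub fun _ _ _ => sum_nonneg fun _ _ => sq_nonneg _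
  refine (h1.trans (h f)).trans (le_of_eq ?_)
  rw [pow_succ]
  ring

theorem Cp_mono {C C' : ℝ} {a l : ℕ} {c : ℤ → ℤ → κ → ℝ} {n m : ℤ} (h : Cp C a l c n m)
    (hC : C ≤ C') : Cp C' a l c n m := fun f => (h f).trans (by
  have h0 : 0 ≤ ∑ y ∈ iv l m, f y ^ 2 := sum_nonneg fun _ _ => sq_nonneg _
  have h1 : C * 2 ^ a * 2 ^ l ≤ C' * 2 ^ a * 2 ^ l := by
    have : (0 : ℝ) ≤ 2 ^ a * 2 ^ l := by positivity
    nlinarith
  exact mul_le_mul_of_nonneg_right h1 h0)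

/-- caps of the squares of scale `j`, middle scale `k ≤ j`, outer scale `a ≥ j` -/
theorem cap_low {C : ℝ} {j a : ℕ} {c : ℤ → ℤ → κ → ℝ} (hk : k + r = j) (hja : j ≤ a)
    (hj : j ≤ N) (ha : a ≤ N) (h : ∀ n ∈ iv (N - j) R, ∀ m ∈ iv (N - j) S, Cp C j j c n m)
    {n m : ℤ} (hn : n ∈ iv (N - a) R) (hm : m ∈ iv (N - k) S) : Cp (2 ^ r * C) a k c n m := by
  have hm2 : ix r m ∈ iv (N - j) S := by
    rw [mem_iv] at hm ⊢
    rw [← hm, ix_ix]
    congr 1
    omega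
  exact Cp_cut hk rfl (Cp_up hja le_rfl ha hj h hn hm2)

/-- the function of the next time -/
theorem cap_low1 {C : ℝ} {j a : ℕ} {c : ℤ → ℤ → κ → ℝ} (hC0 : 0 ≤ C) (hk : k + r = j)
    (hja : j ≤ a) (hj : j < N) (ha : a ≤ N)
    (h : ∀ n ∈ iv (N - (j + 1)) R, ∀ m ∈ iv (N - (j + 1)) S, Cp C (j + 1) (j + 1) c n m)
    {n m : ℤ} (hn : n ∈ iv (N - a) R) (hm : m ∈ iv (N - k) S) :
    Cp (4 * (2 ^ r * C)) a k c n m := by
  rcases Nat.eq_or_lt_of_le hja with rfl | hlt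
  · have hn2 : ix 1 n ∈ iv (N - (j + 1)) R := by
      rw [mem_iv] at hn ⊢
      rw [← hn, ix_ix]
      congr 1
      omega
    have h1 := cap_low (k := k) (r := r + 1) (by omega) le_rfl (by omega) (by omega) h hn2 hm
    refine Cp_mono (Cp_half h1) (le_of_eq ?_)
    rw [pow_succ]
    ring
  · have h1 := cap_low (k := k) (r := r + 1) (by omega) hlt (by omega) ha h hn hm
    refine Cp_mono h1 ?_
    rw [pow_succ]
    have : 0 ≤ 2 ^ r * C := by positivity
    linarith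

/-! ### own energies by cap and mass -/

/-- mass of a family on the root -/
def mss (N : ℕ) (R S : ℤ) (b : ℤ → ℤ → κ → ℝ) : ℝ :=
  ∑ y ∈ iv N S, ∑ x ∈ iv N R, ∑ i, b x y i ^ 2

theorem mss_nonneg (N : ℕ) (R S : ℤ) (b : ℤ → ℤ → κ → ℝ) : 0 ≤ mss N R S b :=
  sum_nonneg fun _ _ => sum_nonneg fun _ _ => sum_nonneg fun _ _ => sq_nonneg _

/-- **Own energy by cap and mass**, any middle scale and any outer scale. -/
theorem EW_mass [DecidableEq κ] {C : ℝ} {a : ℕ} {b : ℤ → ℤ → κ → ℝ} (hk : k ≤ N) (ha : a ≤ N)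
    (hC : ∀ n ∈ iv (N - a) R, ∀ m ∈ iv (N - k) S, Cp C a k b n m) :
    EW N R S k (QK b (fun _ _ _ => 1) k) a ≤ C * mss N R S b := by
  unfold EW
  simp only [QK_one]
  have h1 : ∀ m ∈ iv (N - k) S, ∀ n ∈ iv (N - a) R,
      (QW a k b (fun _ => 1) n m * QW a k b (fun _ => 1) n m).trace ≤
      C * (((2 : ℝ) ^ a * 2 ^ k)⁻¹ * ∑ y ∈ iv k m, ∑ x ∈ iv a n, ∑ i, b x y i ^ 2) := by
    intro m hm n hn
    rw [tr_un]
    have h2 : ∑ x ∈ iv a n, ∑ i, Qf a k b n m (fun y => b x y i) ≤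
        C * 2 ^ a * 2 ^ k * ∑ y ∈ iv k m, ∑ x ∈ iv a n, ∑ i, b x y i ^ 2 := by
      have e : ∑ y ∈ iv k m, ∑ x ∈ iv a n, ∑ i, b x y i ^ 2 =
          ∑ x ∈ iv a n, ∑ i, ∑ y ∈ iv k m, b x y i ^ 2 := by
        rw [sum_comm]
        exact sum_congr rfl fun x _ => sum_comm
      rw [e, mul_sum]
      refine sum_le_sum fun x _ => ?_
      rw [mul_sum]
      exact sum_le_sum fun i _ => hC n hn m hm fun y => b x y i
    have h3 : (0 : ℝ) ≤ ((2 : ℝ) ^ a * 2 ^ a)⁻¹ * ((2 : ℝ) ^ k)⁻¹ ^ 2 := by positivity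
    have h4 := mul_le_mul_of_nonneg_left h2 h3
    rw [mul_assoc] at h4
    refine h4.trans (le_of_eq ?_)
    have e1 : (2 : ℝ) ^ a ≠ 0 := by positivity
    have e3 : (2 : ℝ) ^ k ≠ 0 := by positivity
    field_simp
  refine (mul_le_mul_of_nonneg_left (sum_le_sum fun m hm => sum_le_sum fun n hn => h1 m hm n hn)
    (by positivity)).trans (le_of_eq ?_)
  have e2 : ∑ m ∈ iv (N - k) S, ∑ n ∈ iv (N - a) R, ∑ y ∈ iv k m, ∑ x ∈ iv a n, ∑ i, b x y i ^ 2 =
      mss N R S b := by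
    unfold mss
    rw [← H804.iv_sum hk S fun y => ∑ x ∈ iv N R, ∑ i, b x y i ^ 2]
    refine sum_congr rfl fun m _ => ?_
    rw [sum_comm]
    refine sum_congr rfl fun y _ => ?_
    exact H804.iv_sum ha R fun x => ∑ i, b x y i ^ 2
  simp only [← mul_sum]
  rw [e2]
  have e1 : (2 : ℝ) ^ a ≠ 0 := by positivity
  have e3 : (2 : ℝ) ^ k ≠ 0 := by positivity
  field_simp

end

end Vale.Agent.P141.H275
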