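import Vale.Agent.P141.H275.GrKill
import Vale.Agent.P141.H922.NbAB3
import Vale.Agent.P141.H352.NearP

/-!
# P141, line (A), near term: the gap sums below the outer scale

For every offset `r` the gaps of the pair `(A, b)` at middle scale `k + 1`, outer scale `k + r + 1`,
functions of time `k + r + 1`, summed over `k`: at most `2 ^ r` times cap times the masses on the
affected squares.
-/

namespace Vale.Agent.P141.H275

open Finset Matrix Vale.Agent.P141.PL Vale.Agent.P141.PL.H103 Vale.Agent.P141.H103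
open Vale.Agent.P075 (Ix val)
open Vale.Agent.P141.H470
open Vale.Agent.P141.H652 (MR GR PlD totalR)
open Vale.Agent.P141.H352 (gV gp)
open Vale.Agent.P141.H922.NB (QU sg mid_eq tr_PQ QU_symm QU_out QU_own PA_outA WW_mono gp_eq)

noncomputable section

open scoped Classical

variable {κ : Type*} [Fintype κ] [DecidableEq κ]

/-- the gap is a trace -/
theorem gV_eq (A : ℤ → ℤ → ℝ) (b : ℤ → ℤ → κ → ℝ) (K k : ℕ) (n n' m : ℤ) :
    gV A b K (k + 1) n n' m =
      (PA (sg (k + 1) A) (k + 1) K n m * QU b (k + 1) K n' m).trace := by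
  rw [tr_PQ]
  unfold H352.gV
  have h4 : ((4 : ℝ) ^ K)⁻¹ = ((2 : ℝ) ^ K * 2 ^ K)⁻¹ := by
    rw [← mul_pow]
    norm_num
  rw [h4]
  congr 1
  refine sum_congr rfl fun z _ => sum_congr rfl fun x _ => ?_
  have e := gp_eq A b z x k m
  have e2 : H483.hd (qK A b z x) (k + 1) m = qK (sg (k + 1) A) b z x (k + 1) m := by
    unfold H483.hd
    rw [Nat.add_sub_cancel]
    unfold H352.gp at e
    have e3 : (1 / 2 : ℝ) • (qK A b z x k (2 * m) - qK A b z x k (2 * m + 1)) =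
        -((1 / 2 : ℝ) • (qK A b z x k (2 * m + 1) - qK A b z x k (2 * m))) := by module
    rw [e3, e, neg_neg]
  rw [e2, H352.sq_eq]
  rfl

theorem geo4 (n : ℕ) : ∑ r ∈ range n, (3 / 4 : ℝ) ^ r ≤ 4 := by
  have : ∀ n : ℕ, ∑ r ∈ range n, (3 / 4 : ℝ) ^ r = 4 - 4 * (3 / 4) ^ n := by
    intro n
    induction n with
    | zero => simp
    | succ n ih => rw [sum_range_succ, ih, pow_succ]; ring
  rw [this]
  have : (0 : ℝ) ≤ (3 / 4) ^ n := by positivity
  linarith

theorem WW_const {N k : ℕ} {e : ℝ} (he : 0 ≤ e) : WW N k (fun _ => e) ≤ 4 * e := by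
  unfold WW
  rw [← sum_mul]
  exact mul_le_mul_of_nonneg_right (geo4 _) he

/-- caps of the squares of scale `t` -/
def CpS (N : ℕ) (R S : ℤ) (C : ℝ) (t : ℕ) {κ : Type*} [Fintype κ] (b : ℤ → ℤ → κ → ℝ) : Prop :=
  ∀ n ∈ iv (N - t) R, ∀ m ∈ iv (N - t) S, Cp C t t b n m

variable {N k r : ℕ} {R S T : ℤ} {Q Q' : ℤ → ℤ → Prop}

set_option linter.unusedSectionVars false

/-- **The charge of one kill step**, middle scale `k`, outer scale and kill scale `k + r`. -/
theorem hx_cut {D : ℕ} (h : k + r < N) (d : ℤ) {cA cB : ℝ} (hA0 : 0 ≤ cA) (hB0 : 0 ≤ cB)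
    {A' A : ℤ → ℤ → ℝ} {b' b : ℤ → ℤ → κ → ℝ}
    (aA : AgrQ N R S (k + r) Q (un A') (un A)) (aB : AgrQ N T S (k + r) Q' b' b)
    (cA' : CpS N R S cA (k + r + 1) (un A')) (cA1 : CpS N R S cA (k + r) (un A))
    (cB' : CpS N T S cB (k + r + 1) b') (cB1 : CpS N T S cB (k + r) b) :
    MR N R S T k r d (PA A' k (k + r)) (QU b' k (k + r))
      + (4 * D + 1) * (WW N (k + r) (EW N R S k (PA A' k)) + WW N (k + r) (EW N T S k (QU b' k)))
      ≤ MR N R S T k r d (PA A k (k + r)) (QU b k (k + r))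
      + (4 * D + 1) * (WW N (k + r) (EW N R S k (PA A k)) + WW N (k + r) (EW N T S k (QU b k)))
      + 2 ^ r * ((80 * D + 24) * ((cA + cB) *
        (kM N R S (k + r) Q (un A') + kM N T S (k + r) Q' b'))) := by
  set X := kM N R S (k + r) Q (un A') with hX
  set Y := kM N T S (k + r) Q' b' with hY
  have X0 : 0 ≤ X := kM_nonneg ..
  have Y0 : 0 ≤ Y := kM_nonneg ..
  have p2 : (0 : ℝ) < 2 ^ r := by positivity
  have m1 : MR N R S T k r d (PA A' k (k + r)) (QU b' k (k + r)) ≤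
      MR N R S T k r d (PA A k (k + r)) (QU b k (k + r)) +
        (4 * (2 ^ r * cB) * X + 2 ^ r * cA * Y) := by
    rw [PA_eq, PA_eq]
    exact MR_cut (C := 2 ^ r * cA) (C' := 4 * (2 ^ r * cB)) (by positivity) (by positivity)
      h.le d aA aB
      (fun n hn m hm => cap_low rfl le_rfl h.le h.le cA1 hn hm)
      (fun n hn m hm => cap_low1 hB0 rfl le_rfl h h.le cB' hn hm)
  have e1 : ∀ a, k + r ≤ a → a ≤ N → EW N R S k (PA A' k) a ≤ EW N R S k (PA A k) a +
      5 * (2 ^ r * cA) * X := by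
    intro a h1 h2
    rw [PA_eq, PA_eq]
    refine (EW_cut (C := 2 ^ r * cA) (C' := 4 * (2 ^ r * cA)) rfl h.le h2 aA
      (fun n hn m hm => cap_low rfl h1 h.le h2 cA1 hn hm)
      (fun n hn m hm => cap_low1 hA0 rfl h1 h h2 cA' hn hm)).trans (le_of_eq ?_)
    ring
  have e2 : ∀ a, k + r ≤ a → a ≤ N → EW N T S k (QU b' k) a ≤ EW N T S k (QU b k) a +
      5 * (2 ^ r * cB) * Y := by
    intro a h1 h2
    refine (EW_cut (C := 2 ^ r * cB) (C' := 4 * (2 ^ r * cB)) rfl h.le h2 aB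
      (fun n hn m hm => cap_low rfl h1 h.le h2 cB1 hn hm)
      (fun n hn m hm => cap_low1 hB0 rfl h1 h h2 cB' hn hm)).trans (le_of_eq ?_)
    change EW N T S k (QU b k) a + (4 * (2 ^ r * cB) + 2 ^ r * cB) * Y = _
    ring
  have w1 := WW_mono (N := N) (k := k + r) h.le (e := EW N R S k (PA A' k))
    (e' := EW N R S k (PA A k)) (d := fun _ => 5 * (2 ^ r * cA) * X) e1
  have w2 := WW_mono (N := N) (k := k + r) h.le (e := EW N T S k (QU b' k))
    (e' := EW N T S k (QU b k)) (d := fun _ => 5 * (2 ^ r * cB) * Y) e2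
  have w3 := WW_const (N := N) (k := k + r) (e := 5 * (2 ^ r * cA) * X) (by positivity)
  have w4 := WW_const (N := N) (k := k + r) (e := 5 * (2 ^ r * cB) * Y) (by positivity)
  have hD : (0 : ℝ) ≤ 4 * D + 1 := by positivity
  have w5 := mul_le_mul_of_nonneg_left (add_le_add (w1.trans (add_le_add_right w3 _))
    (w2.trans (add_le_add_right w4 _))) hD
  have z1 : 0 ≤ cA * Y := by positivity
  have z2 : 0 ≤ cB * X := by positivity
  have z3 : 0 ≤ cA * X := by positivity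
  have z4 : 0 ≤ cB * Y := by positivity
  have D0 : (0 : ℝ) ≤ D := Nat.cast_nonneg D
  have z5 : 4 * (2 ^ r * cB) * X + 2 ^ r * cA * Y + (4 * D + 1) * (4 * (5 * (2 ^ r * cA) * X) +
      4 * (5 * (2 ^ r * cB) * Y)) ≤ 2 ^ r * ((80 * D + 24) * ((cA + cB) * (X + Y))) := by
    have z6 : 2 ^ r * ((80 * D + 24) * ((cA + cB) * (X + Y))) - (4 * (2 ^ r * cB) * X +
        2 ^ r * cA * Y + (4 * D + 1) * (4 * (5 * (2 ^ r * cA) * X) +
          4 * (5 * (2 ^ r * cB) * Y))) = 2 ^ r * ((80 * D + 20) * (cB * X) +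
            (80 * D + 23) * (cA * Y) + 4 * (cA * X) + 4 * (cB * Y)) := by ring
    have z7 : 0 ≤ 2 ^ r * ((80 * D + 20) * (cB * X) + (80 * D + 23) * (cA * Y) + 4 * (cA * X) +
        4 * (cB * Y)) := by positivity
    linarith
  simp only [mul_add] at w5 z5 m1 ⊢
  linarith

/-! ### masses from the affected squares -/

/-- one step -/
theorem mss_step {t : ℕ} (ht : t ≤ N) {b' b : ℤ → ℤ → κ → ℝ} (aB : AgrQ N R S t Q b' b) :
    mss N R S b' ≤ mss N R S b + kM N R S t Q b' := by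
  unfold mss kM
  rw [← H804.iv_sum ht S fun y => ∑ x ∈ iv N R, ∑ i, b' x y i ^ 2,
    ← H804.iv_sum ht S fun y => ∑ x ∈ iv N R, ∑ i, b x y i ^ 2, ← sum_add_distrib]
  refine sum_le_sum fun M hM => ?_
  rw [sum_comm, sum_comm (s := iv t M), ← sum_add_distrib]
  refine sum_le_sum fun x hx => ?_
  split_ifs with hq
  · have := ms_nonneg (iv t M) b x
    linarith
  · have hn : ix t x ∈ iv (N - t) R := by
      rw [mem_iv] at hx ⊢
      rw [ix_ix, ← hx]
      congr 1
      omega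
    rw [add_zero]
    refine le_of_eq (sum_congr rfl fun y hy => ?_)
    rw [aB _ hn M hM hq x (mem_iv.2 rfl) y hy]

/-- **The mass at any time by the masses on the affected squares.** -/
theorem mss_le {Qs : ℕ → ℤ → ℤ → Prop} {b : ℕ → ℤ → ℤ → κ → ℝ} (hP : PathQ N R S Qs b)
    (h0 : b 0 = 0) : ∀ t ≤ N, mss N R S (b t) ≤ ∑ j ∈ range t, kM N R S j (Qs j) (b (j + 1)) := by
  intro t
  induction t with
  | zero =>
    intro _
    rw [h0]
    simp [mss]
  | succ t ih =>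
    intro ht
    rw [sum_range_succ]
    have h1 := ih (by omega)
    have h2 := mss_step (by omega) (hP t (by omega))
    linarith

/-- the total affected mass -/
def kT (N : ℕ) (R S : ℤ) (Qs : ℕ → ℤ → ℤ → Prop) {κ : Type*} [Fintype κ]
    (b : ℕ → ℤ → ℤ → κ → ℝ) : ℝ :=
  ∑ t ∈ range N, kM N R S t (Qs t) (b (t + 1))

theorem mss_le_kT {Qs : ℕ → ℤ → ℤ → Prop} {b : ℕ → ℤ → ℤ → κ → ℝ} (hP : PathQ N R S Qs b)
    (h0 : b 0 = 0) {t : ℕ} (ht : t ≤ N) : mss N R S (b t) ≤ kT N R S Qs b :=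
  (mss_le hP h0 t ht).trans (sum_le_sum_of_subset_of_nonneg
    (fun _ hj => mem_range.2 ((mem_range.1 hj).trans_le ht)) fun _ _ _ => kM_nonneg ..)

/-! ### the gap sum -/

/-- **The gap sum at offset `r`.** -/
theorem gr_sum {D : ℕ} (hr : r ≤ N) {c : ℕ → ℤ} (hc : PlD D c) {cA cB : ℝ} (hA0 : 0 ≤ cA)
    (hB0 : 0 ≤ cB) {QA QB : ℕ → ℤ → ℤ → Prop} {A : ℕ → ℤ → ℤ → ℝ} {b : ℕ → ℤ → ℤ → κ → ℝ}
    (pA : PathQ N R S QA fun t => un (A t)) (pB : PathQ N T S QB b)
    (zA : A 0 = 0) (zB : b 0 = 0)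
    (kA : ∀ t ≤ N, CpS N R S cA t (un (A t))) (kB : ∀ t ≤ N, CpS N T S cB t (b t)) :
    ∑ k ∈ range (N - r), GR N R S T (k + 1) r (c (k + r + 1))
        (gV (A (k + r + 1)) (b (k + r + 1)) (k + r + 1) (k + 1))
      ≤ 2 ^ r * ((96 * D + 29) * ((cA + cB) *
        (kT N R S QA (fun t => un (A t)) + kT N T S QB b))) := by
  set X := kT N R S QA (fun t => un (A t)) with hX
  set Y := kT N T S QB b with hY
  have X0 : 0 ≤ X := sum_nonneg fun _ _ => kM_nonneg ..
  have Y0 : 0 ≤ Y := sum_nonneg fun _ _ => kM_nonneg ..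
  have h := totalR (k₀ := 0) (N := N) (r := r) (D := D) (by omega) (R := R) (S := S) (T := T) hc
    (P := fun k => PA (A (k + r)) k) (P' := fun k => PA (A (k + r + 1)) k)
    (Q := fun k => QU (b (k + r)) k) (Q' := fun k => QU (b (k + r + 1)) k)
    (g := fun k => gV (A (k + r + 1)) (b (k + r + 1)) (k + r + 1) (k + 1))
    (dE := fun _ _ => 0) (dF := fun _ _ => 0)
    (x := fun k => 2 ^ r * ((80 * D + 24) * ((cA + cB) *
      (kM N R S (k + r) (QA (k + r)) (un (A (k + r + 1))) +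
        kM N T S (k + r) (QB (k + r)) (b (k + r + 1))))))
    (fun k _ _ => PA_outA N _ k _) (fun k _ _ => QU_out N _ k _)
    (fun k _ _ => PA_outA N _ k _) (fun k _ _ => QU_out N _ k _)
    (fun k a n m => PA_symm _ k a n m) (fun k a n m => QU_symm _ k a n m)
    (fun k a n m => PA_symm _ k a n m) (fun k a n m => QU_symm _ k a n m)
    (fun k _ _ n n' m => by
      rw [gV_eq, show k + 1 + r = k + r + 1 by omega]
      exact (mid_eq (k + r + 1) (k + r + 1) k (A (k + r + 1)) (b (k + r + 1)) n n' m).le)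
    (fun k _ h2 a _ _ => by
      rw [add_zero, show k + 1 + r = k + r + 1 by omega]
      exact PA_own (N := N) (k := k) (by omega) R S (A (k + r + 1)) a)
    (fun k _ h2 a _ _ => by
      rw [add_zero, show k + 1 + r = k + r + 1 by omega]
      exact QU_own (N := N) (k := k) (by omega) T S (b (k + r + 1)) a)
    (fun k _ h2 => hx_cut h2 _ hA0 hB0 (pA (k + r) h2) (pB (k + r) h2) (kA (k + r + 1) h2)
      (kA (k + r) h2.le) (kB (k + r + 1) h2) (kB (k + r) h2.le))
  have hW0 : ∀ k, WW N k (fun _ => (0 : ℝ)) = 0 := fun k => by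
    unfold WW
    simp
  simp only [hW0, add_zero, sum_const_zero, mul_zero] at h
  rw [Nat.Ico_zero_eq_range] at h
  -- the start
  have s1 : EW N R S 0 (PA (A (0 + r)) 0) (0 + r) ≤ 2 ^ r * cA * X := by
    rw [zero_add, PA_eq]
    refine (EW_mass (k := 0) (Nat.zero_le _) hr fun n hn m hm =>
      cap_low (k := 0) (r := r) (Nat.zero_add r) le_rfl hr hr (kA r hr) hn hm).trans ?_
    exact mul_le_mul_of_nonneg_left (mss_le_kT pA (by
      funext z y i
      simp [un, zA]) hr) (by positivity)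
  have s2 : EW N T S 0 (QU (b (0 + r)) 0) (0 + r) ≤ 2 ^ r * cB * Y := by
    rw [zero_add]
    refine (EW_mass (k := 0) (Nat.zero_le _) hr fun n hn m hm =>
      cap_low (k := 0) (r := r) (Nat.zero_add r) le_rfl hr hr (kB r hr) hn hm).trans ?_
    exact mul_le_mul_of_nonneg_left (mss_le_kT pB zB hr) (by positivity)
  -- the charges
  have s3 : ∀ f : ℕ → ℝ, (∀ t, 0 ≤ f t) → ∑ k ∈ range (N - r), f (k + r) ≤ ∑ t ∈ range N, f t := by
    intro f hf
    have e : ∑ k ∈ range (N - r), f (k + r) = ∑ t ∈ Ico r N, f t := by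
      rw [Finset.sum_Ico_eq_sum_range]
      exact sum_congr rfl fun k _ => by rw [add_comm]
    rw [e]
    refine sum_le_sum_of_subset_of_nonneg (fun t ht => mem_range.2 (mem_Ico.1 ht).2)
      fun t _ _ => hf t
  have s4 := s3 (fun t => kM N R S t (QA t) (un (A (t + 1)))) fun t => kM_nonneg ..
  have s5 := s3 (fun t => kM N T S t (QB t) (b (t + 1))) fun t => kM_nonneg ..
  have s6 : ∑ k ∈ range (N - r), 2 ^ r * ((80 * D + 24) * ((cA + cB) *
      (kM N R S (k + r) (QA (k + r)) (un (A (k + r + 1))) +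
        kM N T S (k + r) (QB (k + r)) (b (k + r + 1))))) ≤
      2 ^ r * ((80 * D + 24) * ((cA + cB) * (X + Y))) := by
    rw [← mul_sum, ← mul_sum, ← mul_sum, sum_add_distrib]
    exact mul_le_mul_of_nonneg_left (mul_le_mul_of_nonneg_left (mul_le_mul_of_nonneg_left
      (add_le_add s4 s5) (by positivity)) (by positivity)) (by positivity)
  have hD : (0 : ℝ) ≤ 16 * D + 5 := by positivity
  have s7 := mul_le_mul_of_nonneg_left (add_le_add s1 s2) hD
  refine (h.trans (add_le_add s7 s6)).trans ?_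
  have D0 : (0 : ℝ) ≤ D := Nat.cast_nonneg D
  have z6 : 2 ^ r * ((96 * D + 29) * ((cA + cB) * (X + Y))) -
      ((16 * D + 5) * (2 ^ r * cA * X + 2 ^ r * cB * Y) +
        2 ^ r * ((80 * D + 24) * ((cA + cB) * (X + Y)))) =
      2 ^ r * ((16 * D + 5) * (cA * Y + cB * X)) := by ring
  have z7 : 0 ≤ 2 ^ r * ((16 * D + 5) * (cA * Y + cB * X)) := by positivity
  linarith

/-- **The gap sum at offset `r`, shifted plane**; form of `H56.Pn.E2_sum`. -/
theorem pn_GR (hr : r ≤ N) {c : ℕ → ℤ} (hc : H588.Pl c) {d : ℤ} (hd : |d| ≤ 9) {cA cB : ℝ}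
    (hA0 : 0 ≤ cA) (hB0 : 0 ≤ cB) {QA QB : ℕ → ℤ → ℤ → Prop} {A : ℕ → ℤ → ℤ → ℝ}
    {b : ℕ → ℤ → ℤ → κ → ℝ} (pA : PathQ N R S QA fun t => un (A t)) (pB : PathQ N T S QB b)
    (zA : A 0 = 0) (zB : b 0 = 0)
    (kA : ∀ t ≤ N, CpS N R S cA t (un (A t))) (kB : ∀ t ≤ N, CpS N T S cB t (b t)) :
    ∑ k ∈ range (N - r), GR N R S T (k + 1) r (c (k + r + 1) + d)
        (gV (A (k + r + 1)) (b (k + r + 1)) (k + r + 1) (k + 1))
      ≤ 1085 * ((cA + cB) * (kT N R S QA (fun t => un (A t)) + kT N T S QB b)) * 2 ^ r := by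
  have h := gr_sum (D := 2 + 9) hr ((H652.PlD_of_Pl hc).add d (e := 9) (by exact_mod_cast hd))
    hA0 hB0 pA pB zA zB kA kB
  refine h.trans (le_of_eq ?_)
  push_cast
  ring

end

end Vale.Agent.P141.H275
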