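import Vale.Agent.P141.H103.MidK
import Vale.Agent.P141.H43.MidR
import Vale.Agent.P141.H505.Lev

/-!
# P141, line (A): the numbers of the kills in the near term

The pair energy `MW` of two unweighted families at middle scale `l` when the squares of scale
`s ≤ l` of two predicates are killed.
-/

namespace Vale.Agent.P141.H275

open Finset Matrix Vale.Agent.P141.PL Vale.Agent.P141.PL.H103 Vale.Agent.P141.H103
open Vale.Agent.P141.H43 (sum_val_iv sum_iv_half)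
open Vale.Agent.P141.H505 (hs_cs hs_nonneg trace_tmul)
open Vale.Agent.P075 (Ix val)

noncomputable section

open scoped Classical

/-! ### sums over intervals -/

theorem sum_nest (p r : ℕ) (R : ℤ) (f : ℤ → ℝ) :
    ∑ n ∈ iv p R, ∑ j ∈ iv r n, f j = ∑ j ∈ iv (p + r) R, f j := by
  induction p generalizing R with
  | zero =>
    have h4 : iv 0 R = {R} := by
      ext x
      simp only [iv, mem_Ico, mem_singleton, pow_zero, one_mul]
      omega
    rw [h4, sum_singleton, Nat.zero_add]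
  | succ p ih =>
    rw [show p + 1 + r = (p + r) + 1 by ring, sum_iv_half, sum_iv_half, ih, ih]

theorem sum_inj {R T : Finset ℤ} (c : ℤ) {g : ℤ → ℝ} (hg : ∀ n ∈ T, 0 ≤ g n) :
    ∑ n ∈ R, (if c - n ∈ T then g (c - n) else 0) ≤ ∑ n ∈ T, g n := by
  rw [← Finset.sum_filter]
  have h : ∑ n ∈ R.filter (fun n => c - n ∈ T), g (c - n)
      = ∑ n ∈ (R.filter (fun n => c - n ∈ T)).image (fun n => c - n), g n := by
    rw [Finset.sum_image]
    intro a _ b _ hab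
    simp only at hab
    linarith
  rw [h]
  refine Finset.sum_le_sum_of_subset_of_nonneg ?_ fun n hn _ => hg n hn
  intro x hx
  obtain ⟨n, hn, rfl⟩ := Finset.mem_image.1 hx
  exact (Finset.mem_filter.1 hn).2

/-! ### traces -/

section tr

variable {n p : Type*} [Fintype n] [DecidableEq n] [Fintype p] [DecidableEq p]

set_option linter.unusedSectionVars false

theorem tr_cap {G : Matrix n n ℝ} {c : ℝ} (hc : (c • (1 : Matrix n n ℝ) - G).PosSemidef)
    (V : Matrix n p ℝ) : (Vᵀ * G * V).trace ≤ c * (Vᵀ * V).trace := by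
  have h := (hc.conjTranspose_mul_mul_same V).trace_nonneg
  have e : Vᴴ * (c • (1 : Matrix n n ℝ) - G) * V = c • (Vᵀ * V) - Vᵀ * G * V := by
    rw [conjTranspose_eq_transpose_of_trivial, Matrix.mul_sub, Matrix.sub_mul, Matrix.mul_smul,
      Matrix.smul_mul, Matrix.mul_one]
  rw [e, trace_sub, trace_smul, smul_eq_mul] at h
  linarith

theorem tr_cs {G : Matrix n n ℝ} {c : ℝ} (hG : G.PosSemidef)
    (hc : (c • (1 : Matrix n n ℝ) - G).PosSemidef) (hc0 : 0 ≤ c) (D E : Matrix n p ℝ) :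
    |(Dᵀ * G * E).trace| ≤ c * (√((Dᵀ * D).trace) * √((Eᵀ * E).trace)) := by
  obtain ⟨S, hSp, rfl⟩ := Vale.Agent.P075.exists_sq hG
  have hS : Sᵀ = S := Vale.Agent.P075.psd_isSymm hSp
  have e : ∀ A B : Matrix n p ℝ, Aᵀ * (S * S) * B = (S * A)ᵀ * (S * B) := by
    intro A B
    rw [transpose_mul, hS]
    simp only [Matrix.mul_assoc]
  have h := hs_cs (S * D) (S * E)
  rw [← e, ← e, ← e] at h
  have h1 : √((Dᵀ * (S * S) * D).trace) ≤ √(c * (Dᵀ * D).trace) :=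
    Real.sqrt_le_sqrt (tr_cap hc D)
  have h2 : √((Eᵀ * (S * S) * E).trace) ≤ √(c * (Eᵀ * E).trace) :=
    Real.sqrt_le_sqrt (tr_cap hc E)
  refine h.trans ((mul_le_mul h1 h2 (Real.sqrt_nonneg _) (Real.sqrt_nonneg _)).trans
    (le_of_eq ?_))
  rw [Real.sqrt_mul hc0, Real.sqrt_mul hc0]
  have := Real.mul_self_sqrt hc0
  calc _ = (√c * √c) * (√((Dᵀ * D).trace) * √((Eᵀ * E).trace)) := by ring
    _ = _ := by rw [this]

/-- the difference of two rank pieces against a symmetric matrix -/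
theorem tr_diff {G : Matrix n n ℝ} (hs : Gᵀ = G) (F' F : Matrix n p ℝ) :
    ((F' * F'ᵀ - F * Fᵀ) * G).trace = ((F' - F)ᵀ * G * (F' + F)).trace := by
  have e1 : ((F' * F'ᵀ) * G).trace = (F'ᵀ * G * F').trace := by
    rw [Matrix.mul_assoc, trace_mul_comm]
  have e2 : ((F * Fᵀ) * G).trace = (Fᵀ * G * F).trace := by
    rw [Matrix.mul_assoc, trace_mul_comm]
  have e3 : (F'ᵀ * G * F).trace = (Fᵀ * G * F').trace := by
    rw [← trace_transpose, transpose_mul, transpose_mul, transpose_transpose, hs,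
      Matrix.mul_assoc]
  rw [Matrix.sub_mul, trace_sub, e1, e2, transpose_sub, Matrix.sub_mul, Matrix.sub_mul,
    Matrix.mul_add, Matrix.mul_add, trace_sub, trace_add, trace_add, e3]
  ring

theorem tr_diff_le {G : Matrix n n ℝ} {c : ℝ} (hG : G.PosSemidef)
    (hc : (c • (1 : Matrix n n ℝ) - G).PosSemidef) (hc0 : 0 ≤ c) (F' F : Matrix n p ℝ) :
    ((F' * F'ᵀ - F * Fᵀ) * G).trace
      ≤ c * (√(((F' - F)ᵀ * (F' - F)).trace) * √(((F' + F)ᵀ * (F' + F)).trace)) := by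
  have hs : Gᵀ = G := by
    have := hG.1
    rwa [Matrix.IsHermitian, conjTranspose_eq_transpose_of_trivial] at this
  rw [tr_diff hs]
  exact (le_abs_self _).trans (tr_cs hG hc hc0 _ _)

end tr

/-! ### rows -/

variable {κ : Type*} [Fintype κ] [DecidableEq κ]

/-- the row of `x` on the middle cell `(l, m)` -/
def Rw (f : ℤ → ℤ → κ → ℝ) (l : ℕ) (x m : ℤ) : Matrix (Ix l) κ ℝ :=
  Matrix.of fun j i => f x (2 ^ l * m + val l j) i

/-- the Gram matrix without weight -/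
def Gm (f : ℤ → ℤ → κ → ℝ) (a l : ℕ) (n m : ℤ) : Matrix (Ix l) (Ix l) ℝ :=
  QW a l f (fun _ => 1) n m

theorem Gm_eq (f : ℤ → ℤ → κ → ℝ) (a l : ℕ) (n m : ℤ) :
    Gm f a l n m = ((2 : ℝ) ^ a * 2 ^ l)⁻¹ • ∑ x ∈ iv a n, Rw f l x m * (Rw f l x m)ᵀ := by
  ext j j'
  rw [Gm, QW, Matrix.smul_apply, Matrix.sum_apply, smul_eq_mul]
  congr 1
  refine Finset.sum_congr rfl fun x _ => ?_
  rw [Matrix.one_mulVec]
  rfl

theorem Gm_psd (f : ℤ → ℤ → κ → ℝ) (a l : ℕ) (n m : ℤ) : (Gm f a l n m).PosSemidef :=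
  QW_psd (fun _ => Matrix.PosSemidef.one) n m

theorem PA_Gm (A : ℤ → ℤ → ℝ) (a l : ℕ) (n m : ℤ) : PA A l a n m = Gm (un A) a l n m := by
  rw [PA_eq]
  unfold QK Gm
  congr 1
  funext x
  exact inv_one

theorem QK_Gm (b : ℤ → ℤ → κ → ℝ) (a l : ℕ) (n m : ℤ) : QK b 1 l a n m = Gm b a l n m := by
  unfold QK Gm
  congr 1
  funext x
  exact inv_one

/-- number of the killed cells of scale `s` in the row `x` over the middle cell `(l, m)` -/
def cnt (q : ℤ → ℤ → Prop) (s l : ℕ) (x m : ℤ) : ℝ :=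
  ∑ m' ∈ iv (l - s) m, if q (ix s x) m' then 1 else 0

theorem cnt_nonneg (q : ℤ → ℤ → Prop) (s l : ℕ) (x m : ℤ) : 0 ≤ cnt q s l x m :=
  Finset.sum_nonneg fun _ _ => by split_ifs <;> norm_num

theorem sqrt_cnt (q : ℤ → ℤ → Prop) (s l : ℕ) (x m : ℤ) : √(cnt q s l x m) ≤ cnt q s l x m := by
  by_cases h : ∃ m' ∈ iv (l - s) m, q (ix s x) m'
  · obtain ⟨m', hm, hq⟩ := h
    have h1 : 1 ≤ cnt q s l x m := by
      unfold cnt
      refine le_trans ?_ (Finset.single_le_sum (f := fun m' => if q (ix s x) m' then (1 : ℝ) else 0)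
        (fun _ _ => by split_ifs <;> norm_num) hm)
      simp [hq]
    refine Real.sqrt_le_iff.2 ⟨by linarith, ?_⟩
    nlinarith
  · push Not at h
    have h0 : cnt q s l x m = 0 := Finset.sum_eq_zero fun m' hm => if_neg (h m' hm)
    rw [h0, Real.sqrt_zero]

theorem tr_Rw (f : ℤ → ℤ → κ → ℝ) (l : ℕ) (x m : ℤ) :
    ((Rw f l x m)ᵀ * Rw f l x m).trace = ∑ y ∈ iv l m, f x y ⬝ᵥ f x y := by
  rw [trace_tmul, Finset.sum_comm, ← sum_val_iv]
  rfl

/-- the family after the kill -/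
def kil (q : ℤ → ℤ → Prop) (s : ℕ) (f : ℤ → ℤ → κ → ℝ) (x y : ℤ) : κ → ℝ :=
  if q (ix s x) (ix s y) then 0 else f x y

theorem Rw_sub (q : ℤ → ℤ → Prop) (s : ℕ) (f : ℤ → ℤ → κ → ℝ) (l : ℕ) (x m : ℤ) :
    Rw f l x m - Rw (kil q s f) l x m
      = Rw (fun x y => if q (ix s x) (ix s y) then f x y else 0) l x m := by
  ext j i
  simp only [Rw, kil, Matrix.sub_apply, Matrix.of_apply]
  split_ifs <;> simp

theorem tr_sub_le {q : ℤ → ℤ → Prop} {s l : ℕ} (hs : s ≤ l) {f : ℤ → ℤ → κ → ℝ} {e : ℝ}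
    {x m : ℤ} (he : ∀ m' ∈ iv (l - s) m, ∑ y ∈ iv s m', f x y ⬝ᵥ f x y ≤ e * 2 ^ s) :
    ((Rw f l x m - Rw (kil q s f) l x m)ᵀ * (Rw f l x m - Rw (kil q s f) l x m)).trace
      ≤ e * 2 ^ s * cnt q s l x m := by
  rw [Rw_sub, tr_Rw]
  have e1 := sum_nest (l - s) s m fun y =>
    (if q (ix s x) (ix s y) then f x y else 0) ⬝ᵥ (if q (ix s x) (ix s y) then f x y else 0)
  rw [Nat.sub_add_cancel hs] at e1
  rw [← e1, cnt, Finset.mul_sum]
  refine Finset.sum_le_sum fun m' hm => ?_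
  by_cases hq : q (ix s x) m'
  · rw [if_pos hq, mul_one]
    refine le_trans (le_of_eq (Finset.sum_congr rfl fun y hy => ?_)) (he m' hm)
    have : ix s y = m' := mem_iv.1 hy
    rw [this, if_pos hq]
  · rw [if_neg hq, mul_zero]
    refine le_of_eq (Finset.sum_eq_zero fun y hy => ?_)
    have : ix s y = m' := mem_iv.1 hy
    rw [this, if_neg hq, zero_dotProduct]

theorem tr_add_le {q : ℤ → ℤ → Prop} {s l : ℕ} {f : ℤ → ℤ → κ → ℝ} {e : ℝ}
    {x m : ℤ} (he : ∑ y ∈ iv l m, f x y ⬝ᵥ f x y ≤ e * 2 ^ l) :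
    ((Rw f l x m + Rw (kil q s f) l x m)ᵀ * (Rw f l x m + Rw (kil q s f) l x m)).trace
      ≤ 4 * (e * 2 ^ l) := by
  have e1 : Rw f l x m + Rw (kil q s f) l x m = Rw (fun x y => f x y + kil q s f x y) l x m := by
    ext j i
    rfl
  rw [e1, tr_Rw]
  refine le_trans ?_ (mul_le_mul_of_nonneg_left he (by norm_num))
  rw [Finset.mul_sum]
  refine Finset.sum_le_sum fun y _ => ?_
  have h0 : 0 ≤ f x y ⬝ᵥ f x y := by
    simp only [dotProduct]
    exact Finset.sum_nonneg fun i _ => mul_self_nonneg _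
  unfold kil
  split_ifs
  · rw [add_zero]; linarith
  · rw [add_dotProduct, dotProduct_add]; linarith

/-- one row -/
theorem row_le {q : ℤ → ℤ → Prop} {s l : ℕ} (hs : s ≤ l) {f : ℤ → ℤ → κ → ℝ} {e c : ℝ}
    (he0 : 0 ≤ e) (hc0 : 0 ≤ c) {x m : ℤ}
    (he : ∀ m' ∈ iv (l - s) m, ∑ y ∈ iv s m', f x y ⬝ᵥ f x y ≤ e * 2 ^ s)
    (he' : ∑ y ∈ iv l m, f x y ⬝ᵥ f x y ≤ e * 2 ^ l)
    {H : Matrix (Ix l) (Ix l) ℝ} (hH : H.PosSemidef)
    (hcH : (c • (1 : Matrix (Ix l) (Ix l) ℝ) - H).PosSemidef) :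
    ((Rw f l x m * (Rw f l x m)ᵀ - Rw (kil q s f) l x m * (Rw (kil q s f) l x m)ᵀ) * H).trace
      ≤ 2 * c * e * √((2 : ℝ) ^ s * 2 ^ l) * cnt q s l x m := by
  refine (tr_diff_le hH hcH hc0 _ _).trans ?_
  have h1 := Real.sqrt_le_sqrt (tr_sub_le (q := q) hs he)
  have h2 := Real.sqrt_le_sqrt (tr_add_le (q := q) (s := s) he')
  have h3 := mul_le_mul h1 h2 (Real.sqrt_nonneg _) (Real.sqrt_nonneg _)
  have h4 : √(e * 2 ^ s * cnt q s l x m) * √(4 * (e * 2 ^ l))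
      = 2 * e * √((2 : ℝ) ^ s * 2 ^ l) * √(cnt q s l x m) := by
    rw [← Real.sqrt_mul (mul_nonneg (by positivity) (cnt_nonneg q s l x m))]
    have e1 : e * 2 ^ s * cnt q s l x m * (4 * (e * 2 ^ l))
        = (2 * e) ^ 2 * (((2 : ℝ) ^ s * 2 ^ l) * cnt q s l x m) := by ring
    rw [e1, Real.sqrt_mul (sq_nonneg _), Real.sqrt_sq (by positivity),
      Real.sqrt_mul (by positivity)]
    ring
  rw [h4] at h3
  refine (mul_le_mul_of_nonneg_left h3 hc0).trans ?_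
  have h5 := mul_le_mul_of_nonneg_left (sqrt_cnt q s l x m)
    (show 0 ≤ 2 * c * e * √((2 : ℝ) ^ s * 2 ^ l) by positivity)
  calc _ = 2 * c * e * √((2 : ℝ) ^ s * 2 ^ l) * √(cnt q s l x m) := by ring
    _ ≤ _ := h5

/-! ### the killed measure -/

/-- measure of the killed squares of scale `s`, outer root `R`, middle root `S` -/
def KM (N s : ℕ) (R S : ℤ) (q : ℤ → ℤ → Prop) : ℝ :=
  ∑ n ∈ iv (N - s) R, ∑ m ∈ iv (N - s) S, if q n m then (4 : ℝ) ^ s else 0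

theorem KM_nonneg (N s : ℕ) (R S : ℤ) (q : ℤ → ℤ → Prop) : 0 ≤ KM N s R S q :=
  Finset.sum_nonneg fun _ _ => Finset.sum_nonneg fun _ _ => by split_ifs <;> positivity

/-- all rows together -/
theorem sum_cnt {N s l : ℕ} (hs : s ≤ l) (hl : l ≤ N) (R S : ℤ) (q : ℤ → ℤ → Prop) :
    √((2 : ℝ) ^ s * 2 ^ l) * ∑ m ∈ iv (N - l) S, ∑ x ∈ iv N R, cnt q s l x m
      = √((2 : ℝ) ^ (l - s)) * KM N s R S q := by
  have h1 : ∑ m ∈ iv (N - l) S, ∑ x ∈ iv N R, cnt q s l x m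
      = ∑ n ∈ iv (N - s) R, ∑ m ∈ iv (N - s) S, if q n m then (2 : ℝ) ^ s else 0 := by
    rw [Finset.sum_comm]
    have h2 : ∀ x, ∑ m ∈ iv (N - l) S, cnt q s l x m
        = ∑ m' ∈ iv (N - s) S, if q (ix s x) m' then (1 : ℝ) else 0 := by
      intro x
      have := sum_nest (N - l) (l - s) S fun m' => if q (ix s x) m' then (1 : ℝ) else 0
      rw [show N - l + (l - s) = N - s by omega] at this
      exact this
    rw [Finset.sum_congr rfl fun x _ => h2 x]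
    have h3 := sum_nest (N - s) s R fun x => ∑ m' ∈ iv (N - s) S,
      if q (ix s x) m' then (1 : ℝ) else 0
    rw [Nat.sub_add_cancel (hs.trans hl)] at h3
    rw [← h3]
    refine Finset.sum_congr rfl fun n _ => ?_
    have h4 : ∀ x ∈ iv s n, (∑ m' ∈ iv (N - s) S, if q (ix s x) m' then (1 : ℝ) else 0)
        = ∑ m' ∈ iv (N - s) S, if q n m' then (1 : ℝ) else 0 := by
      intro x hx
      rw [mem_iv.1 hx]
    rw [Finset.sum_congr rfl h4, Finset.sum_const, nsmul_eq_mul, Finset.mul_sum]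
    refine Finset.sum_congr rfl fun m _ => ?_
    rw [show ((iv s n).card : ℝ) = 2 ^ s by rw [card_iv]; push_cast; rfl]
    split_ifs <;> simp
  rw [h1]
  have h5 : √((2 : ℝ) ^ s * 2 ^ l) = 2 ^ s * √((2 : ℝ) ^ (l - s)) := by
    have : (2 : ℝ) ^ s * 2 ^ l = (2 ^ s) ^ 2 * 2 ^ (l - s) := by
      rw [← pow_mul, ← pow_add, ← pow_add]
      congr 1
      omega
    rw [this, Real.sqrt_mul (by positivity), Real.sqrt_sq (by positivity)]
  rw [h5, KM, mul_comm ((2 : ℝ) ^ s), mul_assoc, Finset.mul_sum]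
  congr 1
  refine Finset.sum_congr rfl fun n _ => ?_
  rw [Finset.mul_sum]
  refine Finset.sum_congr rfl fun m _ => ?_
  split_ifs
  · rw [show (4 : ℝ) = 2 * 2 by norm_num, mul_pow]
  · rw [mul_zero]

/-! ### the pair energy -/

/-- one family moves, the other one stands still with a cap -/
theorem MW_one {N s l : ℕ} (hs : s ≤ l) (hl : l ≤ N) {R S T : ℤ} (c₀ : ℤ)
    {q : ℤ → ℤ → Prop} {f : ℤ → ℤ → κ → ℝ} {e c : ℝ} (he0 : 0 ≤ e) (hc0 : 0 ≤ c)
    (he : ∀ x ∈ iv N R, ∀ m ∈ iv (N - s) S, ∑ y ∈ iv s m, f x y ⬝ᵥ f x y ≤ e * 2 ^ s)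
    (he' : ∀ x ∈ iv N R, ∀ m ∈ iv (N - l) S, ∑ y ∈ iv l m, f x y ⬝ᵥ f x y ≤ e * 2 ^ l)
    {H : ℤ → ℤ → Matrix (Ix l) (Ix l) ℝ} (hH : ∀ n m, (H n m).PosSemidef)
    (hcH : ∀ n ∈ iv (N - l) T, ∀ m ∈ iv (N - l) S,
      (c • (1 : Matrix (Ix l) (Ix l) ℝ) - H n m).PosSemidef) :
    MW N R S T l c₀ (Gm f l l) H
      ≤ MW N R S T l c₀ (Gm (kil q s f) l l) H
        + 2 * c * e * (√((2 : ℝ) ^ (l - s)) * KM N s R S q) := by
  have key : ∀ m ∈ iv (N - l) S, ∀ n ∈ iv (N - l) R,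
      (4 : ℝ) ^ l * (if c₀ - m - n ∈ iv (N - l) T then
          (Gm f l l n m * H (c₀ - m - n) m).trace else 0)
        ≤ (4 : ℝ) ^ l * (if c₀ - m - n ∈ iv (N - l) T then
          (Gm (kil q s f) l l n m * H (c₀ - m - n) m).trace else 0)
        + 2 * c * e * √((2 : ℝ) ^ s * 2 ^ l) * ∑ x ∈ iv l n, cnt q s l x m := by
    intro m hm n hn
    have h0 : 0 ≤ 2 * c * e * √((2 : ℝ) ^ s * 2 ^ l) * ∑ x ∈ iv l n, cnt q s l x m :=
      mul_nonneg (by positivity) (Finset.sum_nonneg fun x _ => cnt_nonneg q s l x m)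
    split_ifs with hT
    · have e1 : (Gm f l l n m * H (c₀ - m - n) m).trace
          - (Gm (kil q s f) l l n m * H (c₀ - m - n) m).trace
          = ((4 : ℝ) ^ l)⁻¹ * ∑ x ∈ iv l n, ((Rw f l x m * (Rw f l x m)ᵀ
            - Rw (kil q s f) l x m * (Rw (kil q s f) l x m)ᵀ) * H (c₀ - m - n) m).trace := by
        rw [← trace_sub, ← Matrix.sub_mul, Gm_eq, Gm_eq, ← smul_sub, ← Finset.sum_sub_distrib,
          Matrix.smul_mul, trace_smul, smul_eq_mul, Finset.sum_mul, trace_sum]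
        congr 2
        rw [← mul_pow]
        norm_num
      have hx : ∀ x ∈ iv l n, x ∈ iv N R := by
        intro x hx
        rw [mem_iv] at hx hn ⊢
        rw [← hn, ← hx, ix_ix]
        congr 1
        omega
      have hm' : ∀ m' ∈ iv (l - s) m, m' ∈ iv (N - s) S := by
        intro m' h
        rw [mem_iv] at h hm ⊢
        rw [← hm, ← h, ix_ix]
        congr 1
        omega
      have e2 : ∑ x ∈ iv l n, ((Rw f l x m * (Rw f l x m)ᵀ
            - Rw (kil q s f) l x m * (Rw (kil q s f) l x m)ᵀ) * H (c₀ - m - n) m).trace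
          ≤ ∑ x ∈ iv l n, 2 * c * e * √((2 : ℝ) ^ s * 2 ^ l) * cnt q s l x m :=
        Finset.sum_le_sum fun x h => row_le hs he0 hc0
          (fun m' h' => he x (hx x h) m' (hm' m' h')) (he' x (hx x h) m hm) (hH _ _)
          (hcH _ hT m hm)
      rw [← Finset.mul_sum] at e2
      have h4 : (0 : ℝ) < 4 ^ l := by positivity
      have e3 : (4 : ℝ) ^ l * (Gm f l l n m * H (c₀ - m - n) m).trace
          = (4 : ℝ) ^ l * (Gm (kil q s f) l l n m * H (c₀ - m - n) m).trace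
            + ∑ x ∈ iv l n, ((Rw f l x m * (Rw f l x m)ᵀ
            - Rw (kil q s f) l x m * (Rw (kil q s f) l x m)ᵀ) * H (c₀ - m - n) m).trace := by
        have e4 : ∑ x ∈ iv l n, ((Rw f l x m * (Rw f l x m)ᵀ
            - Rw (kil q s f) l x m * (Rw (kil q s f) l x m)ᵀ) * H (c₀ - m - n) m).trace
            = (4 : ℝ) ^ l * ((Gm f l l n m * H (c₀ - m - n) m).trace
              - (Gm (kil q s f) l l n m * H (c₀ - m - n) m).trace) := by
          rw [e1, ← mul_assoc, mul_inv_cancel₀ h4.ne', one_mul]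
        rw [e4]
        ring
      rw [e3]
      linarith
    · rw [mul_zero, zero_add]
      exact h0
  have hsum := Finset.sum_le_sum fun m (hm : m ∈ iv (N - l) S) =>
    Finset.sum_le_sum fun n (hn : n ∈ iv (N - l) R) => key m hm n hn
  have eL : ∀ G : ℤ → ℤ → Matrix (Ix l) (Ix l) ℝ, MW N R S T l c₀ G H
      = ∑ m ∈ iv (N - l) S, ∑ n ∈ iv (N - l) R, (4 : ℝ) ^ l *
        (if c₀ - m - n ∈ iv (N - l) T then (G n m * H (c₀ - m - n) m).trace else 0) := by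
    intro G
    unfold MW
    simp only [Finset.mul_sum]
  rw [eL, eL]
  refine hsum.trans (le_of_eq ?_)
  simp only [Finset.sum_add_distrib, ← Finset.mul_sum]
  congr 1
  rw [← sum_cnt hs hl R S q, mul_assoc (2 * c * e)]
  congr 2
  refine Finset.sum_congr rfl fun m _ => ?_
  have := sum_nest (N - l) l R fun x => cnt q s l x m
  rw [Nat.sub_add_cancel hl] at this
  exact this

omit [Fintype κ] [DecidableEq κ] in
/-- the two outer variables exchanged -/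
theorem MW_swap {ι : Type*} [Fintype ι] (N : ℕ) (R S T : ℤ) (l : ℕ) (c₀ : ℤ)
    (p q : ℤ → ℤ → Matrix ι ι ℝ) : MW N R S T l c₀ p q = MW N T S R l c₀ q p := by
  unfold MW
  congr 1
  refine Finset.sum_congr rfl fun m _ => ?_
  rw [← Finset.sum_filter, ← Finset.sum_filter]
  refine Finset.sum_nbij' (fun n => c₀ - m - n) (fun n => c₀ - m - n) ?_ ?_ ?_ ?_ ?_
  · intro n hn
    rw [Finset.mem_filter] at hn ⊢
    refine ⟨hn.2, ?_⟩
    rw [show c₀ - m - (c₀ - m - n) = n by ring]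
    exact hn.1
  · intro n hn
    rw [Finset.mem_filter] at hn ⊢
    refine ⟨hn.2, ?_⟩
    rw [show c₀ - m - (c₀ - m - n) = n by ring]
    exact hn.1
  · intro n _
    ring
  · intro n _
    ring
  · intro n _
    rw [show c₀ - m - (c₀ - m - n) = n by ring, trace_mul_comm]

variable {κ' : Type*} [Fintype κ'] [DecidableEq κ']

/-- **The pair energy before and after the kills** -/
theorem MW_kill {N s l : ℕ} (hs : s ≤ l) (hl : l ≤ N) {R S T : ℤ} (c₀ : ℤ)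
    {qA qB : ℤ → ℤ → Prop} {f : ℤ → ℤ → κ → ℝ} {g : ℤ → ℤ → κ' → ℝ} {eA eB cA cB : ℝ}
    (heA0 : 0 ≤ eA) (heB0 : 0 ≤ eB) (hcA0 : 0 ≤ cA) (hcB0 : 0 ≤ cB)
    (heA : ∀ x ∈ iv N R, ∀ m ∈ iv (N - s) S, ∑ y ∈ iv s m, f x y ⬝ᵥ f x y ≤ eA * 2 ^ s)
    (heA' : ∀ x ∈ iv N R, ∀ m ∈ iv (N - l) S, ∑ y ∈ iv l m, f x y ⬝ᵥ f x y ≤ eA * 2 ^ l)
    (heB : ∀ x ∈ iv N T, ∀ m ∈ iv (N - s) S, ∑ y ∈ iv s m, g x y ⬝ᵥ g x y ≤ eB * 2 ^ s)
    (heB' : ∀ x ∈ iv N T, ∀ m ∈ iv (N - l) S, ∑ y ∈ iv l m, g x y ⬝ᵥ g x y ≤ eB * 2 ^ l)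
    (hcA : ∀ n ∈ iv (N - l) R, ∀ m ∈ iv (N - l) S,
      (cA • (1 : Matrix (Ix l) (Ix l) ℝ) - Gm (kil qA s f) l l n m).PosSemidef)
    (hcB : ∀ n ∈ iv (N - l) T, ∀ m ∈ iv (N - l) S,
      (cB • (1 : Matrix (Ix l) (Ix l) ℝ) - Gm g l l n m).PosSemidef) :
    MW N R S T l c₀ (Gm f l l) (Gm g l l)
      ≤ MW N R S T l c₀ (Gm (kil qA s f) l l) (Gm (kil qB s g) l l)
        + 2 * √((2 : ℝ) ^ (l - s)) * (cB * eA * KM N s R S qA + cA * eB * KM N s T S qB) := by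
  have h1 := MW_one hs hl (T := T) c₀ (q := qA) heA0 hcB0 heA heA' (H := Gm g l l)
    (fun n m => Gm_psd g l l n m) hcB
  have h2 := MW_one hs hl (R := T) (T := R) c₀ (q := qB) heB0 hcA0 heB heB'
    (H := Gm (kil qA s f) l l) (fun n m => Gm_psd _ l l n m) hcA
  rw [MW_swap N T S R l c₀ (Gm g l l), MW_swap N T S R l c₀ (Gm (kil qB s g) l l)] at h2
  linarith

/-! ### sums over the scales -/

/-- the weights of the tubes against the loss of the kills -/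
theorem weight_sum (n : ℕ) :
    ∑ i ∈ range n, ((2 : ℝ) / 3) ^ i * (1 + i) * √((2 : ℝ) ^ (i + 1)) ≤ 450 := by
  have hs2 : √(2 : ℝ) ≤ 14143 / 10000 := by
    rw [Real.sqrt_le_left (by norm_num)]
    norm_num
  have hs0 : 0 ≤ √(2 : ℝ) := Real.sqrt_nonneg _
  set ρ : ℝ := 94287 / 100000 with hρ
  have hpow : ∀ i : ℕ, √((2 : ℝ) ^ (i + 1)) = √2 * √2 ^ i := by
    intro i
    rw [pow_succ, Real.sqrt_mul (by positivity), mul_comm]
    congr 1
    induction i with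
    | zero => simp
    | succ i ih => rw [pow_succ, Real.sqrt_mul (by positivity), ih, pow_succ]
  have h1 : ∀ i : ℕ, ((2 : ℝ) / 3) ^ i * (1 + i) * √((2 : ℝ) ^ (i + 1))
      ≤ 14143 / 10000 * (ρ ^ i * (1 + i)) := by
    intro i
    rw [hpow]
    have e : ((2 : ℝ) / 3) ^ i * √2 ^ i = (2 / 3 * √2) ^ i := (mul_pow _ _ _).symm
    have h2 : (2 / 3 * √2) ^ i ≤ ρ ^ i :=
      pow_le_pow_left₀ (by positivity) (by rw [hρ]; linarith) i
    have h3 : (0 : ℝ) ≤ 1 + i := by positivity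
    calc ((2 : ℝ) / 3) ^ i * (1 + i) * (√2 * √2 ^ i)
        = √2 * ((2 / 3 * √2) ^ i * (1 + i)) := by rw [← e]; ring
      _ ≤ 14143 / 10000 * (ρ ^ i * (1 + i)) := by
          refine mul_le_mul hs2 (mul_le_mul_of_nonneg_right h2 h3) (by positivity) (by norm_num)
  have h4 : ∀ n : ℕ, ∑ i ∈ range n, ρ ^ i * (1 + i : ℝ)
      ≤ ((1 - ρ) ^ 2)⁻¹ - ρ ^ n * (n / (1 - ρ) + ((1 - ρ) ^ 2)⁻¹) := by
    intro n
    induction n with
    | zero => simp
    | succ n ih =>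
      rw [sum_range_succ]
      have e : ((1 - ρ) ^ 2)⁻¹ - ρ ^ n * (n / (1 - ρ) + ((1 - ρ) ^ 2)⁻¹) + ρ ^ n * (1 + n)
          = ((1 - ρ) ^ 2)⁻¹ - ρ ^ (n + 1) * (((n + 1 : ℕ) : ℝ) / (1 - ρ) + ((1 - ρ) ^ 2)⁻¹) := by
        have : (1 : ℝ) - ρ ≠ 0 := by rw [hρ]; norm_num
        push_cast
        field_simp
        ring
      rw [← e]
      linarith
  have h5 : ∑ i ∈ range n, ρ ^ i * (1 + i : ℝ) ≤ ((1 - ρ) ^ 2)⁻¹ := by
    refine (h4 n).trans ?_
    have : 0 ≤ ρ ^ n * (n / (1 - ρ) + ((1 - ρ) ^ 2)⁻¹) := by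
      have : (0 : ℝ) < 1 - ρ := by rw [hρ]; norm_num
      have : (0 : ℝ) ≤ ρ := by rw [hρ]; norm_num
      positivity
    linarith
  calc _ ≤ ∑ i ∈ range n, 14143 / 10000 * (ρ ^ i * (1 + i : ℝ)) := Finset.sum_le_sum fun i _ => h1 i
    _ = 14143 / 10000 * ∑ i ∈ range n, ρ ^ i * (1 + i : ℝ) := by rw [Finset.mul_sum]
    _ ≤ 14143 / 10000 * ((1 - ρ) ^ 2)⁻¹ := mul_le_mul_of_nonneg_left h5 (by norm_num)
    _ ≤ 450 := by rw [hρ]; norm_num

/-- **Packing**: all scales `l` and all depths `i`, kills of scale `l - i - 1` -/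
theorem pack_sum {N : ℕ} {M : ℕ → ℝ} (hM : ∀ s, 0 ≤ M s) {P : ℝ} (hP : ∑ s ∈ range N, M s ≤ P) :
    ∑ i ∈ range N, ((2 : ℝ) / 3) ^ i * (1 + i) *
      ∑ l ∈ Icc (i + 1) N, √((2 : ℝ) ^ (i + 1)) * M (l - (i + 1)) ≤ 450 * P := by
  have h1 : ∀ i, ∑ l ∈ Icc (i + 1) N, M (l - (i + 1)) ≤ P := by
    intro i
    refine le_trans ?_ hP
    rcases Nat.lt_or_ge N (i + 1) with h | h
    · rw [Finset.Icc_eq_empty (by omega), Finset.sum_empty]
      exact Finset.sum_nonneg fun s _ => hM s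
    · have e : ∑ l ∈ Icc (i + 1) N, M (l - (i + 1)) = ∑ s ∈ range (N - i), M s := by
        refine Finset.sum_nbij' (fun l => l - (i + 1)) (fun s => s + (i + 1)) ?_ ?_ ?_ ?_ ?_
        · intro l hl
          rw [Finset.mem_Icc] at hl
          rw [Finset.mem_range]
          omega
        · intro s hs
          rw [Finset.mem_range] at hs
          rw [Finset.mem_Icc]
          omega
        · intro l hl
          rw [Finset.mem_Icc] at hl
          omega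
        · intro s _
          omega
        · intro l _
          rfl
      rw [e]
      exact Finset.sum_le_sum_of_subset_of_nonneg
        (fun s hs => Finset.mem_range.2 (lt_of_lt_of_le (Finset.mem_range.1 hs) (Nat.sub_le _ _)))
        fun s _ _ => hM s
  have h0 : 0 ≤ P := (Finset.sum_nonneg fun s _ => hM s).trans hP
  calc _ ≤ ∑ i ∈ range N, ((2 : ℝ) / 3) ^ i * (1 + i) * √((2 : ℝ) ^ (i + 1)) * P := by
        refine Finset.sum_le_sum fun i _ => ?_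
        rw [← Finset.mul_sum, ← mul_assoc]
        exact mul_le_mul_of_nonneg_left (h1 i) (by positivity)
    _ = (∑ i ∈ range N, ((2 : ℝ) / 3) ^ i * (1 + i) * √((2 : ℝ) ^ (i + 1))) * P := by
        rw [Finset.sum_mul]
    _ ≤ 450 * P := mul_le_mul_of_nonneg_right (weight_sum N) h0

end

end Vale.Agent.P141.H275
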